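import Vale.Agent.Lib.P060.Peel

namespace Vale.Agent.Lib.P060

universe u

variable {V : Type u} (G : SimpleGraph V)

theorem induce_pair_connected {p q : V} (h : p = q ∨ G.Adj p q) :
    (G.induce ({p, q} : Set V)).Connected := by
  have : Nonempty ({p, q} : Set V) := ⟨⟨p, by simp⟩⟩
  refine SimpleGraph.Connected.mk ?_
  intro a b
  by_cases hab : a = b
  · subst hab; exact SimpleGraph.Reachable.refl _
  · apply SimpleGraph.Adj.reachable
    rw [SimpleGraph.induce_adj]
    have ha : (a : V) = p ∨ (a : V) = q := (Set.mem_insert_iff.1 a.2).imp id Set.mem_singleton_iff.1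
    have hb : (b : V) = p ∨ (b : V) = q := (Set.mem_insert_iff.1 b.2).imp id Set.mem_singleton_iff.1
    have hne : (a : V) ≠ b := fun h => hab (Subtype.ext h)
    rcases ha with ha | ha <;> rcases hb with hb | hb
    · exact absurd (ha.trans hb.symm) hne
    · rw [ha, hb]
      rcases h with h | h
      · exact absurd (ha.trans (h.trans hb.symm)) hne
      · exact h
    · rw [ha, hb]
      rcases h with h | h
      · exact absurd (ha.trans (h.symm.trans hb.symm)) hne
      · exact h.symm
    · exact absurd (ha.trans hb.symm) hne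

theorem hasCliqueMinor_mono {s t : ℕ} (hst : s ≤ t) (h : HasCliqueMinor G t) :
    HasCliqueMinor G s := by
  obtain ⟨B, h1, h2, h3⟩ := h
  refine ⟨fun i => B (Fin.castLE hst i), fun i => h1 _, fun i j hij => h2 _ _ ?_,
    fun i j hij => h3 _ _ ?_⟩
  · intro h; exact hij (Fin.castLE_injective hst h)
  · intro h; exact hij (Fin.castLE_injective hst h)

/-- From a peeling certificate on all vertices: a proper colouring and a clique minor of the
same size. -/
theorem exists_of_peel [Fintype V] (h : Peel G (Finset.univ : Finset V)) :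
    ∃ t : ℕ, G.Colorable t ∧ HasCliqueMinor G t := by
  obtain ⟨L, c, hc1, hc2, hL1, hL2⟩ := h
  refine ⟨L.length, ⟨SimpleGraph.Coloring.mk (fun x => (⟨c x, hc1 x (Finset.mem_univ x)⟩ :
    Fin L.length)) ?_⟩, ?_⟩
  · intro x y hxy hEq
    exact hc2 x (Finset.mem_univ x) y (Finset.mem_univ y) hxy (congrArg Fin.val hEq)
  · have hrel : ∀ i j : Fin L.length, i ≠ j → PairRel G (L.get i) (L.get j) := by
      intro i j hij
      rcases lt_or_gt_of_ne hij with hlt | hgt
      · exact hL2.rel_get_of_lt hlt
      · exact (hL2.rel_get_of_lt hgt).symm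
    refine ⟨fun i => ({(L.get i).1, (L.get i).2} : Set V), ?_, ?_, ?_⟩
    · intro i
      exact induce_pair_connected G (hL1 _ (List.get_mem L i)).2.2
    · intro i j hij
      obtain ⟨h1, h2, h3, h4, _⟩ := hrel i j hij
      rw [Set.disjoint_left]
      intro a ha hb
      simp only [Set.mem_insert_iff, Set.mem_singleton_iff] at ha hb
      rcases ha with rfl | rfl <;> rcases hb with hb | hb
      · exact h1 hb
      · exact h2 hb
      · exact h3 hb
      · exact h4 hb
    · intro i j hij
      obtain ⟨_, _, _, _, h5⟩ := hrel i j hij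
      rcases h5 with h | h | h | h
      · exact ⟨_, by simp, _, by simp, h⟩
      · exact ⟨_, by simp, _, by simp, h⟩
      · exact ⟨_, by simp, _, by simp, h⟩
      · exact ⟨_, by simp, _, by simp, h⟩

/-- The form of Hadwiger's conjecture for `G`: no `K_{t+1}` minor implies `t`-colourable. -/
theorem hadwiger_of_peel [Fintype V] (h : Peel G (Finset.univ : Finset V)) (t : ℕ)
    (ht : ¬HasCliqueMinor G (t + 1)) : G.Colorable t := by
  obtain ⟨t0, hcol, hmin⟩ := exists_of_peel G h
  by_cases h0 : t0 ≤ t
  · exact hcol.mono h0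
  · exact absurd (hasCliqueMinor_mono G (by omega) hmin) ht

end Vale.Agent.Lib.P060
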