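import Vale.Agent.Lib.P060.Convert

namespace Vale.Agent.Lib.P060

universe u

variable {V : Type u} (G : SimpleGraph V)

/-- Every edge of `G` has at most one common non-neighbour. -/
def EdgeAlmostDominating : Prop :=
  ∀ x y, G.Adj x y → ∀ z z', z ≠ x → z ≠ y → z' ≠ x → z' ≠ y →
    ¬G.Adj z x → ¬G.Adj z y → ¬G.Adj z' x → ¬G.Adj z' y → z = z'

open Classical in
theorem peel_of_edgeAlmostDominating (hG : EdgeAlmostDominating G) :
    ∀ R : Finset V, Peel G R := by
  intro R
  induction R using Finset.strongInduction with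
  | H R ih =>
    rcases R.eq_empty_or_nonempty with rfl | hne
    · exact peel_empty G
    by_cases hA : ∃ u ∈ R, ∀ y1 ∈ R, ∀ y2 ∈ R, y1 ≠ u → y2 ≠ u →
        ¬G.Adj u y1 → ¬G.Adj u y2 → ¬G.Adj y1 y2
    · -- Move A
      obtain ⟨u, huR, hu⟩ := hA
      set S := R.filter (fun z => z = u ∨ ¬G.Adj u z) with hS
      have huS : u ∈ S := by simp [hS, huR]
      have hSR : S ⊆ R := Finset.filter_subset _ _
      refine peel_A G R S u hSR huS ?_ ?_ (ih _ ?_)
      · intro x hx y hy hxy
        rw [hS, Finset.mem_filter] at hx hy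
        rcases hx.2 with rfl | hx2
        · rcases hy.2 with rfl | hy2
          · exact G.loopless.irrefl _ hxy
          · exact hy2 hxy
        · rcases hy.2 with rfl | hy2
          · exact hx2 hxy.symm
          · by_cases hxu : x = u
            · subst hxu; exact hy2 hxy
            · by_cases hyu : y = u
              · subst hyu; exact hx2 hxy.symm
              · exact hu x hx.1 y hy.1 hxu hyu hx2 hy2 hxy
      · intro z hz hzS
        rw [hS, Finset.mem_filter] at hzS
        by_contra hcon
        exact hzS ⟨hz, Or.inr hcon⟩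
      · rw [Finset.ssubset_iff_of_subset Finset.sdiff_subset]
        exact ⟨u, huR, fun h => (Finset.mem_sdiff.1 h).2 huS⟩
    · -- Move B
      push Not at hA
      obtain ⟨v, hvR⟩ := hne
      obtain ⟨u, huR, w, hwR, huv, hwv, hvu, hvw, huw⟩ := hA v hvR
      -- a vertex `x` with `x ≠ v`, `x ≠ w`, not adjacent to `w`, adjacent to `v`
      have hx : ∃ x ∈ R, x ≠ v ∧ x ≠ w ∧ ¬G.Adj w x ∧ G.Adj v x := by
        by_contra hcon
        push Not at hcon
        obtain ⟨y1, hy1R, y2, hy2R, hy1w, hy2w, hwy1, hwy2, hy12⟩ := hA w hwR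
        by_cases h1 : y1 = v
        · subst h1
          have hy2v : y2 ≠ y1 := fun h => G.loopless.irrefl _ (h ▸ hy12)
          exact hcon y2 hy2R hy2v hy2w hwy2 hy12
        · by_cases h2 : y2 = v
          · subst h2
            exact hcon y1 hy1R h1 hy1w hwy1 hy12.symm
          · have hv1 : ¬G.Adj v y1 := hcon y1 hy1R h1 hy1w hwy1
            have hv2 : ¬G.Adj v y2 := hcon y2 hy2R h2 hy2w hwy2
            have := hG y1 y2 hy12 v w (Ne.symm h1) (Ne.symm h2) (Ne.symm hy1w) (Ne.symm hy2w)
              hv1 hv2 hwy1 hwy2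
            exact hwv this.symm
      obtain ⟨x, hxR, hxv, hxw, hwx, hvx⟩ := hx
      have hu_ne_w : u ≠ w := fun h => G.loopless.irrefl _ (h ▸ huw)
      have hu_ne_x : u ≠ x := fun h => hwx (h ▸ huw.symm)
      have hux : G.Adj u x := by
        by_contra hcon
        have := hG u w huw v x (Ne.symm huv) (Ne.symm hwv) (Ne.symm hu_ne_x) hxw
          hvu hvw (fun h => hcon h.symm) (fun h => hwx h.symm)
        exact hxv this.symm
      refine peel_B G R u v w x huR hvR hwR hxR huv hu_ne_w hu_ne_x (Ne.symm hwv)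
        (Ne.symm hxv) (Ne.symm hxw) (fun h => hvu h.symm) hwx huw hvx (Or.inl hux) ?_ ?_ (ih _ ?_)
      · intro z _ hzu hzv hzw _
        by_contra hcon
        push Not at hcon
        have := hG u w huw z v hzu hzw (Ne.symm huv) (Ne.symm hwv)
          (fun h => hcon.1 h.symm) (fun h => hcon.2 h.symm) hvu hvw
        exact hzv this
      · intro z _ _ hzv hzw hzx
        by_contra hcon
        push Not at hcon
        have := hG v x hvx z w hzv hzx hwv (Ne.symm hxw)
          (fun h => hcon.1 h.symm) (fun h => hcon.2 h.symm) (fun h => hvw h.symm) hwx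
        exact hzw this
      · rw [Finset.ssubset_iff_of_subset Finset.sdiff_subset]
        exact ⟨u, huR, fun h => (Finset.mem_sdiff.1 h).2 (by simp)⟩

end Vale.Agent.Lib.P060
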