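import Vale.Agent.Lib.P060.Defs

namespace Vale.Agent.Lib.P060

universe u

variable {V : Type u} (G : SimpleGraph V)

/-- Relation between two branch pairs: disjoint and joined by an edge. -/
def PairRel (e f : V × V) : Prop :=
  e.1 ≠ f.1 ∧ e.1 ≠ f.2 ∧ e.2 ≠ f.1 ∧ e.2 ≠ f.2 ∧
    (G.Adj e.1 f.1 ∨ G.Adj e.1 f.2 ∨ G.Adj e.2 f.1 ∨ G.Adj e.2 f.2)

theorem PairRel.symm {e f : V × V} (h : PairRel G e f) : PairRel G f e := by
  obtain ⟨h1, h2, h3, h4, h5⟩ := h
  refine ⟨h1.symm, h3.symm, h2.symm, h4.symm, ?_⟩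
  rcases h5 with h | h | h | h
  · exact Or.inl h.symm
  · exact Or.inr (Or.inr (Or.inl h.symm))
  · exact Or.inr (Or.inl h.symm)
  · exact Or.inr (Or.inr (Or.inr h.symm))

/-- `Peel G R`: the subgraph of `G` on the finite vertex set `R` has, for some `t`, both a proper
colouring with `t` colours and a `K_t` minor whose branch sets are single vertices or edges
(recorded as a list of `t` pairs). -/
def Peel (R : Finset V) : Prop :=
  ∃ (L : List (V × V)) (c : V → ℕ),
    (∀ x ∈ R, c x < L.length) ∧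
    (∀ x ∈ R, ∀ y ∈ R, G.Adj x y → c x ≠ c y) ∧
    (∀ e ∈ L, e.1 ∈ R ∧ e.2 ∈ R ∧ (e.1 = e.2 ∨ G.Adj e.1 e.2)) ∧
    L.Pairwise (PairRel G)

theorem peel_empty : Peel G (∅ : Finset V) :=
  ⟨[], fun _ => 0, by simp, by simp, by simp, List.Pairwise.nil⟩

open Classical in
/-- Move A: a vertex `u` together with an independent set `S ∋ u` containing all its
non-neighbours in `R`. -/
theorem peel_A (R S : Finset V) (u : V) (hS : S ⊆ R) (hu : u ∈ S)
    (hind : ∀ x ∈ S, ∀ y ∈ S, ¬G.Adj x y)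
    (huniv : ∀ z ∈ R, z ∉ S → G.Adj u z) (h : Peel G (R \ S)) : Peel G R := by
  obtain ⟨L, c, hc1, hc2, hL1, hL2⟩ := h
  refine ⟨(u, u) :: L, fun x => if x ∈ S then L.length else c x, ?_, ?_, ?_, ?_⟩
  · intro x hx
    by_cases hxS : x ∈ S
    · simp [hxS]
    · have := hc1 x (Finset.mem_sdiff.2 ⟨hx, hxS⟩)
      simp only [hxS, if_false, List.length_cons]
      omega
  · intro x hx y hy hxy
    by_cases hxS : x ∈ S <;> by_cases hyS : y ∈ S
    · exact absurd hxy (hind x hxS y hyS)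
    · have := hc1 y (Finset.mem_sdiff.2 ⟨hy, hyS⟩)
      simp only [hxS, hyS, if_true, if_false]
      omega
    · have := hc1 x (Finset.mem_sdiff.2 ⟨hx, hxS⟩)
      simp only [hxS, hyS, if_true, if_false]
      omega
    · simp only [hxS, hyS, if_false]
      exact hc2 x (Finset.mem_sdiff.2 ⟨hx, hxS⟩) y (Finset.mem_sdiff.2 ⟨hy, hyS⟩) hxy
  · intro e he
    rcases List.mem_cons.1 he with rfl | he
    · exact ⟨hS hu, hS hu, Or.inl rfl⟩
    · obtain ⟨h1, h2, h3⟩ := hL1 e he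
      exact ⟨(Finset.mem_sdiff.1 h1).1, (Finset.mem_sdiff.1 h2).1, h3⟩
  · rw [List.pairwise_cons]
    refine ⟨fun f hf => ?_, hL2⟩
    obtain ⟨h1, h2, _⟩ := hL1 f hf
    have hf1 := Finset.mem_sdiff.1 h1
    have hf2 := Finset.mem_sdiff.1 h2
    refine ⟨?_, ?_, ?_, ?_, Or.inl (huniv f.1 hf1.1 hf1.2)⟩
    · rintro rfl; exact hf1.2 hu
    · rintro rfl; exact hf2.2 hu
    · rintro rfl; exact hf1.2 hu
    · rintro rfl; exact hf2.2 hu

open Classical in
/-- Move B: four vertices `u, v, w, x` with non-edges `uv`, `wx` (two colour classes) and edges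
`uw`, `vx` (two branch sets), joined by an edge, each branch set seeing every other vertex
of `R`. -/
theorem peel_B (R : Finset V) (u v w x : V) (hu : u ∈ R) (hv : v ∈ R) (hw : w ∈ R) (hx : x ∈ R)
    (huv' : u ≠ v) (huw' : u ≠ w) (hux' : u ≠ x) (hvw' : v ≠ w) (hvx' : v ≠ x) (hwx' : w ≠ x)
    (huv : ¬G.Adj u v) (hwx : ¬G.Adj w x) (huw : G.Adj u w) (hvx : G.Adj v x)
    (hcross : G.Adj u x ∨ G.Adj w v)
    (huniv1 : ∀ z ∈ R, z ≠ u → z ≠ v → z ≠ w → z ≠ x → G.Adj u z ∨ G.Adj w z)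
    (huniv2 : ∀ z ∈ R, z ≠ u → z ≠ v → z ≠ w → z ≠ x → G.Adj v z ∨ G.Adj x z)
    (h : Peel G (R \ {u, v, w, x})) : Peel G R := by
  obtain ⟨L, c, hc1, hc2, hL1, hL2⟩ := h
  have hmem : ∀ z, z ∈ R \ ({u, v, w, x} : Finset V) ↔ z ∈ R ∧ z ≠ u ∧ z ≠ v ∧ z ≠ w ∧ z ≠ x := by
    intro z
    simp only [Finset.mem_sdiff, Finset.mem_insert, Finset.mem_singleton, not_or]
  refine ⟨(u, w) :: (v, x) :: L,
    fun z => if z = u ∨ z = v then L.length else if z = w ∨ z = x then L.length + 1 else c z,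
    ?_, ?_, ?_, ?_⟩
  · intro z hz
    simp only [List.length_cons]
    split_ifs with h1 h2
    · omega
    · omega
    · push Not at h1 h2
      have := hc1 z ((hmem z).2 ⟨hz, h1.1, h1.2, h2.1, h2.2⟩)
      omega
  · intro y hy z hz hyz
    have key : ∀ t, t ∈ R → ¬(t = u ∨ t = v) → ¬(t = w ∨ t = x) → c t < L.length := by
      intro t ht h1 h2
      push Not at h1 h2
      exact hc1 t ((hmem t).2 ⟨ht, h1.1, h1.2, h2.1, h2.2⟩)
    simp only
    split_ifs with h1 h2 h3 h4 h5 h6 h7 h8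
    · exfalso
      rcases h1 with rfl | rfl <;> rcases h2 with rfl | rfl
      · exact G.loopless.irrefl _ hyz
      · exact huv hyz
      · exact huv hyz.symm
      · exact G.loopless.irrefl _ hyz
    · omega
    · have := key z hz h2 h3
      omega
    · omega
    · exfalso
      rcases h4 with rfl | rfl <;> rcases h6 with rfl | rfl
      · exact G.loopless.irrefl _ hyz
      · exact hwx hyz
      · exact hwx hyz.symm
      · exact G.loopless.irrefl _ hyz
    · have := key z hz h5 h6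
      omega
    · have := key y hy h1 h4
      omega
    · have := key y hy h1 h4
      omega
    · push Not at h1 h4 h7 h8
      exact hc2 y ((hmem y).2 ⟨hy, h1.1, h1.2, h4.1, h4.2⟩) z
        ((hmem z).2 ⟨hz, h7.1, h7.2, h8.1, h8.2⟩) hyz
  · intro e he
    rcases List.mem_cons.1 he with rfl | he
    · exact ⟨hu, hw, Or.inr huw⟩
    rcases List.mem_cons.1 he with rfl | he
    · exact ⟨hv, hx, Or.inr hvx⟩
    · obtain ⟨h1, h2, h3⟩ := hL1 e he
      exact ⟨((hmem _).1 h1).1, ((hmem _).1 h2).1, h3⟩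
  · have hrest : ∀ f ∈ L, PairRel G (u, w) f ∧ PairRel G (v, x) f := by
      intro f hf
      obtain ⟨h1, h2, _⟩ := hL1 f hf
      obtain ⟨hf1R, hf1u, hf1v, hf1w, hf1x⟩ := (hmem _).1 h1
      obtain ⟨hf2R, hf2u, hf2v, hf2w, hf2x⟩ := (hmem _).1 h2
      refine ⟨⟨hf1u.symm, hf2u.symm, hf1w.symm, hf2w.symm, ?_⟩,
        ⟨hf1v.symm, hf2v.symm, hf1x.symm, hf2x.symm, ?_⟩⟩
      · rcases huniv1 f.1 hf1R hf1u hf1v hf1w hf1x with h | h
        · exact Or.inl h
        · exact Or.inr (Or.inr (Or.inl h))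
      · rcases huniv2 f.1 hf1R hf1u hf1v hf1w hf1x with h | h
        · exact Or.inl h
        · exact Or.inr (Or.inr (Or.inl h))
    rw [List.pairwise_cons, List.pairwise_cons]
    refine ⟨?_, fun f hf => (hrest f hf).2, hL2⟩
    intro f hf
    rcases List.mem_cons.1 hf with rfl | hf
    · refine ⟨huv', hux', hvw'.symm, hwx', ?_⟩
      rcases hcross with h | h
      · exact Or.inr (Or.inl h)
      · exact Or.inr (Or.inr (Or.inl h))
    · exact (hrest f hf).1

open Classical in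
/-- Move D: a vertex `v` with a non-neighbour `w` whose neighbourhood (in `R`) contains
that of `v`; `v` receives the colour of `w`. -/
theorem peel_D (R : Finset V) (v w : V) (hv : v ∈ R) (hw : w ∈ R) (hvw' : v ≠ w)
    (hvw : ¬G.Adj v w) (hdom : ∀ z ∈ R, G.Adj v z → G.Adj w z)
    (h : Peel G (R.erase v)) : Peel G R := by
  obtain ⟨L, c, hc1, hc2, hL1, hL2⟩ := h
  have hwe : w ∈ R.erase v := Finset.mem_erase.2 ⟨hvw'.symm, hw⟩
  refine ⟨L, fun z => if z = v then c w else c z, ?_, ?_, ?_, hL2⟩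
  · intro z hz
    by_cases hzv : z = v
    · simp only [hzv, if_true]
      exact hc1 w hwe
    · simp only [hzv, if_false]
      exact hc1 z (Finset.mem_erase.2 ⟨hzv, hz⟩)
  · intro y hy z hz hyz
    by_cases hyv : y = v <;> by_cases hzv : z = v
    · subst hyv; subst hzv; exact absurd hyz (G.loopless.irrefl _)
    · subst hyv
      simp only [hzv, if_true, if_false]
      have hwz : G.Adj w z := hdom z hz hyz
      exact hc2 w hwe z (Finset.mem_erase.2 ⟨hzv, hz⟩) hwz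
    · subst hzv
      simp only [hyv, if_true, if_false]
      have hwy : G.Adj w y := hdom y hy hyz.symm
      exact hc2 y (Finset.mem_erase.2 ⟨hyv, hy⟩) w hwe hwy.symm
    · simp only [hyv, hzv, if_false]
      exact hc2 y (Finset.mem_erase.2 ⟨hyv, hy⟩) z (Finset.mem_erase.2 ⟨hzv, hz⟩) hyz
  · intro e he
    obtain ⟨h1, h2, h3⟩ := hL1 e he
    exact ⟨(Finset.mem_erase.1 h1).2, (Finset.mem_erase.1 h2).2, h3⟩

end Vale.Agent.Lib.P060
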